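import Vale.Agent.P205K.IDefs
import Vale.Agent.P205K.GGeo
import Vale.Agent.P205K.Pos

/-! Interface statements (helper2).  Blocks: A (analysis, `klein_family`), G (geometry), P (profile, assembly), M (matching),
K (general metrics). -/

open Complex ComplexConjugate
open scoped ContDiff

namespace P205T.K

/-- block A -/
theorem klein_analysis (p h : ℝ) (hp : 0 < p) (hh : 0 < h) (w : ℂ → ℝ) (hw : ContDiff ℝ ∞ w)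
    (h1 : ∀ z, w (z + p) = w z) (h2 : ∀ z, w (sig h z) = w z) (C e : ℝ) (hC : 0 < C) (he : 0 < e) :
    ∃ k₀ : ℕ, ∀ k : ℕ, k₀ ≤ k → ∀ κ : ℝ, 0 < κ → κ * k ≤ C → ∃ α Z c, AOut p h w e k κ α Z c := by
  sorry

/-- block P: assembly of the immersion -/
theorem klein_assemble : ∃ κ₀ > 0, ∀ (p h : ℝ), 0 < p → 0 < h → ∀ (w : ℂ → ℝ), ContDiff ℝ ∞ w →
    (∀ z, w (z + p) = w z) → (∀ z, w (sig h z) = w z) →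
    ∀ (k m : ℕ), 0 < k → 0 < m → Even m → ∀ κ : ℝ, κ = 1 - (m : ℝ) ^ 2 / ((m : ℝ) + 1) ^ 2 → κ ≤ κ₀ →
    ∀ A ∈ Set.Icc (3/4 : ℝ) (9/2), ∀ (α : ℂ → ℝ) (Z : ℂ → ℂ) (c : ℝ), ContDiff ℝ ∞ α → ContDiff ℝ ∞ Z →
    (∀ z, α (z + p) = α z) → (∀ z, α (sig h z) = α z) → (∀ z, Z (z + p) = Z z + p) →
    (∀ z, Z (sig h z) = - conj (Z z) + Complex.I * (c : ℂ)) → Met p k κ A w α Z →
    c * (KK p k * √(mu2 κ A)) = Real.pi * m →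
    ∃ F : ℂ → EuclideanSpace ℝ (Fin 4), ContDiff ℝ ∞ F ∧ (∀ z, F (z + p) = F z) ∧ (∀ z, F (sig h z) = F z) ∧
      ∀ z v, ‖fderiv ℝ F z v‖ ^ 2 = Real.exp (2 * w z) * ‖v‖ ^ 2 := by
  sorry

/-- block M: matching.  `m` even, `κ = 1 - m²/(m+1)²`, `A ∈ [3/4, 9/2]` with the closing condition. -/
theorem klein_match (p h : ℝ) (hp : 0 < p) (hh : 0 < h) :
    ∃ C > 0, ∃ e > 0, ∀ κ₀ > 0, ∃ k₁ : ℕ, ∀ k ≥ k₁, ∃ m : ℕ, 0 < m ∧ Even m ∧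
      (1 - (m : ℝ) ^ 2 / ((m : ℝ) + 1) ^ 2) * k ≤ C ∧ 1 - (m : ℝ) ^ 2 / ((m : ℝ) + 1) ^ 2 ≤ κ₀ ∧
      ∀ c : ℝ → ℝ, ContinuousOn c (Set.Icc (3/4) (9/2)) → (∀ A ∈ Set.Icc (3/4 : ℝ) (9/2), |c A - h| * k ≤ e) →
        ∃ A ∈ Set.Icc (3/4 : ℝ) (9/2),
          c A * (KK p k * √(mu2 (1 - (m : ℝ) ^ 2 / ((m : ℝ) + 1) ^ 2) A)) = Real.pi * m := by
  sorry

/-- conformally flat Klein bottles -/
theorem klein_conf (p h : ℝ) (hp : 0 < p) (hh : 0 < h) (w : ℂ → ℝ) (hw : ContDiff ℝ ∞ w)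
    (h1 : ∀ z, w (z + p) = w z) (h2 : ∀ z, w (sig h z) = w z) :
    ∃ F : ℂ → EuclideanSpace ℝ (Fin 4), ContDiff ℝ ∞ F ∧ (∀ z, F (z + p) = F z) ∧ (∀ z, F (sig h z) = F z) ∧
      ∀ z v, ‖fderiv ℝ F z v‖ ^ 2 = Real.exp (2 * w z) * ‖v‖ ^ 2 := by
  sorry

/-- block K: every smooth metric on the Klein bottle `ℂ/⟨z + 1, -conj z + i⟩` -/
theorem klein_general (g : ℂ → ℂ →L[ℝ] ℂ →L[ℝ] ℝ)
    (hg : ContDiff ℝ ∞ g) (hsym : ∀ z v w, g z v w = g z w v) (hpos : ∀ z v, v ≠ 0 → 0 < g z v v)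
    (h1 : ∀ z, g (z + 1) = g z) (h2 : ∀ z v w, g (sig 1 z) (- conj v) (- conj w) = g z v w) :
    ∃ X : ℂ → EuclideanSpace ℝ (Fin 4), ContDiff ℝ ∞ X ∧ (∀ z, X (z + 1) = X z) ∧ (∀ z, X (sig 1 z) = X z) ∧
      ∀ z v w, inner ℝ (fderiv ℝ X z v) (fderiv ℝ X z w) = g z v w := by
  sorry

end P205T.K
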