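import Vale.Agent.P205K.Base

/-! # P205K, block P: the polynomial identity (helper95)

`a U V (1 - κ v) - v'² = κ y² (1 - y) r`, `r = 16 A - 8 + κ S`. -/

namespace P205T.K

noncomputable def Sc0 (κ A : ℝ) : ℝ :=
  (2/9) + (-158/9) * A + (110/9) * A ^ 2 + (8/9) * κ * A + (-29/3) * κ * A ^ 2 + (-32/9) * κ * A ^ 3
  + (4/3) * κ ^ 2 * A ^ 2 + (4/3) * κ ^ 2 * A ^ 3 + (2/9) * κ ^ 2 * A ^ 4 + (8/9) * κ ^ 3 * A ^ 3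
  + (13/9) * κ ^ 3 * A ^ 4 + (2/9) * κ ^ 4 * A ^ 4

noncomputable def Sc1 (κ A : ℝ) : ℝ :=
  (28/9) + (-16/9) * A + (-80/9) * A ^ 2 + (-1/9) * κ + (82/9) * κ * A + (1/3) * κ * A ^ 2
  + (-62/9) * κ * A ^ 3 + (-5/9) * κ ^ 2 * A + (22/3) * κ ^ 2 * A ^ 2 + (14/3) * κ ^ 2 * A ^ 3
  + (17/9) * κ ^ 2 * A ^ 4 + (-10/9) * κ ^ 3 * A ^ 2 + (-14/9) * κ ^ 3 * A ^ 3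
  + (11/9) * κ ^ 3 * A ^ 4 + (-1/9) * κ ^ 3 * A ^ 5 + (-10/9) * κ ^ 4 * A ^ 3
  + (-38/9) * κ ^ 4 * A ^ 4 + (-4/3) * κ ^ 4 * A ^ 5 + (-5/9) * κ ^ 5 * A ^ 4
  + (-4/3) * κ ^ 5 * A ^ 5 + (-1/9) * κ ^ 6 * A ^ 5

noncomputable def Sc2 (κ A : ℝ) : ℝ :=
  (-24) + 96 * A + (-96) * A ^ 2 + (11/9) * κ + (-190/3) * κ * A + (302/3) * κ * A ^ 2
  + (380/9) * κ * A ^ 3 + (52/9) * κ ^ 2 * A + (-53) * κ ^ 2 * A ^ 2 + (-40/3) * κ ^ 2 * A ^ 3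
  + (-50/9) * κ ^ 2 * A ^ 4 + (101/9) * κ ^ 3 * A ^ 2 + (-28/3) * κ ^ 3 * A ^ 3
  + (-49/3) * κ ^ 3 * A ^ 4 + (2/9) * κ ^ 3 * A ^ 5 + (104/9) * κ ^ 4 * A ^ 3
  + (23/3) * κ ^ 4 * A ^ 4 + 2 * κ ^ 4 * A ^ 5 + (61/9) * κ ^ 5 * A ^ 4 + 4 * κ ^ 5 * A ^ 5
  + (1/3) * κ ^ 5 * A ^ 6 + (20/9) * κ ^ 6 * A ^ 5 + (2/3) * κ ^ 6 * A ^ 6 + (1/3) * κ ^ 7 * A ^ 6

noncomputable def Sc3 (κ A : ℝ) : ℝ :=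
  (80/3) + (-320/3) * A + (320/3) * A ^ 2 + (-40/9) * κ + (248/3) * κ * A + (-392/3) * κ * A ^ 2
  + (-304/9) * κ * A ^ 3 + (-1/27) * κ ^ 2 + (-61/3) * κ ^ 2 * A + (881/9) * κ ^ 2 * A ^ 2
  + (-406/27) * κ ^ 2 * A ^ 3 + (31/9) * κ ^ 2 * A ^ 4 + (-7/27) * κ ^ 3 * A
  + (-349/9) * κ ^ 3 * A ^ 2 + (502/9) * κ ^ 3 * A ^ 3 + (392/27) * κ ^ 3 * A ^ 4
  + (-1/9) * κ ^ 3 * A ^ 5 + (-7/9) * κ ^ 4 * A ^ 2 + (-358/9) * κ ^ 4 * A ^ 3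
  + (122/9) * κ ^ 4 * A ^ 4 + (43/9) * κ ^ 4 * A ^ 5 + (-35/27) * κ ^ 5 * A ^ 3
  + (-211/9) * κ ^ 5 * A ^ 4 + (-19/9) * κ ^ 5 * A ^ 5 + (-22/27) * κ ^ 5 * A ^ 6
  + (-35/27) * κ ^ 6 * A ^ 4 + (-70/9) * κ ^ 6 * A ^ 5 + (-17/9) * κ ^ 6 * A ^ 6
  + (-1/27) * κ ^ 6 * A ^ 7 + (-7/9) * κ ^ 7 * A ^ 5 + (-4/3) * κ ^ 7 * A ^ 6
  + (-1/9) * κ ^ 7 * A ^ 7 + (-7/27) * κ ^ 8 * A ^ 6 + (-1/9) * κ ^ 8 * A ^ 7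
  + (-1/27) * κ ^ 9 * A ^ 7

noncomputable def Sc4 (κ A : ℝ) : ℝ :=
  (16/3) * κ + (-64/3) * κ * A + (64/3) * κ * A ^ 2 + (13/27) * κ ^ 2 + (214/9) * κ ^ 2 * A
  + (-644/9) * κ ^ 2 * A ^ 2 + (1192/27) * κ ^ 2 * A ^ 3 + (82/27) * κ ^ 3 * A
  + (127/3) * κ ^ 3 * A ^ 2 + (-760/9) * κ ^ 3 * A ^ 3 + (421/27) * κ ^ 3 * A ^ 4
  + (73/9) * κ ^ 4 * A ^ 2 + (116/3) * κ ^ 4 * A ^ 3 + (-359/9) * κ ^ 4 * A ^ 4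
  + (-70/9) * κ ^ 4 * A ^ 5 + (320/27) * κ ^ 5 * A ^ 3 + (182/9) * κ ^ 5 * A ^ 4
  + (-50/9) * κ ^ 5 * A ^ 5 + (-11/27) * κ ^ 5 * A ^ 6 + (275/27) * κ ^ 6 * A ^ 4
  + (22/3) * κ ^ 6 * A ^ 5 + (5/9) * κ ^ 6 * A ^ 6 + (4/27) * κ ^ 6 * A ^ 7
  + (46/9) * κ ^ 7 * A ^ 5 + (7/3) * κ ^ 7 * A ^ 6 + (4/9) * κ ^ 7 * A ^ 7
  + (37/27) * κ ^ 8 * A ^ 6 + (4/9) * κ ^ 8 * A ^ 7 + (4/27) * κ ^ 9 * A ^ 7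

noncomputable def Sc5 (κ A : ℝ) : ℝ :=
  (-20/9) * κ ^ 2 + 8 * κ ^ 2 * A + (-16/3) * κ ^ 2 * A ^ 2 + (-32/9) * κ ^ 2 * A ^ 3
  + (-113/9) * κ ^ 3 * A + (97/3) * κ ^ 3 * A ^ 2 + (-8) * κ ^ 3 * A ^ 3 + (-116/9) * κ ^ 3 * A ^ 4
  + (-89/3) * κ ^ 4 * A ^ 2 + (146/3) * κ ^ 4 * A ^ 3 + (13/3) * κ ^ 4 * A ^ 4
  + (-19/3) * κ ^ 4 * A ^ 5 + (-340/9) * κ ^ 5 * A ^ 3 + (94/3) * κ ^ 5 * A ^ 4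
  + (32/3) * κ ^ 5 * A ^ 5 + (25/9) * κ ^ 5 * A ^ 6 + (-250/9) * κ ^ 6 * A ^ 4
  + (16/3) * κ ^ 6 * A ^ 5 + 3 * κ ^ 6 * A ^ 6 + (-2/9) * κ ^ 6 * A ^ 7 + (-35/3) * κ ^ 7 * A ^ 5
  + (-7/3) * κ ^ 7 * A ^ 6 + (-2/3) * κ ^ 7 * A ^ 7 + (-23/9) * κ ^ 8 * A ^ 6
  + (-2/3) * κ ^ 8 * A ^ 7 + (-2/9) * κ ^ 9 * A ^ 7

noncomputable def Sc6 (κ A : ℝ) : ℝ :=
  (112/27) * κ ^ 2 + (-224/9) * κ ^ 2 * A + (448/9) * κ ^ 2 * A ^ 2 + (-896/27) * κ ^ 2 * A ^ 3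
  + (568/27) * κ ^ 3 * A + (-88) * κ ^ 3 * A ^ 2 + (896/9) * κ ^ 3 * A ^ 3
  + (-416/27) * κ ^ 3 * A ^ 4 + (397/9) * κ ^ 4 * A ^ 2 + (-344/3) * κ ^ 4 * A ^ 3
  + (409/9) * κ ^ 4 * A ^ 4 + (134/9) * κ ^ 4 * A ^ 5 + (1328/27) * κ ^ 5 * A ^ 3
  + (-580/9) * κ ^ 5 * A ^ 4 + (-74/9) * κ ^ 5 * A ^ 5 + (-74/27) * κ ^ 5 * A ^ 6
  + (842/27) * κ ^ 6 * A ^ 4 + (-12) * κ ^ 6 * A ^ 5 + (-31/9) * κ ^ 6 * A ^ 6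
  + (4/27) * κ ^ 6 * A ^ 7 + (100/9) * κ ^ 7 * A ^ 5 + (4/3) * κ ^ 7 * A ^ 6
  + (4/9) * κ ^ 7 * A ^ 7 + (55/27) * κ ^ 8 * A ^ 6 + (4/9) * κ ^ 8 * A ^ 7
  + (4/27) * κ ^ 9 * A ^ 7

noncomputable def Sc7 (κ A : ℝ) : ℝ :=
  (-64/27) * κ ^ 2 + (128/9) * κ ^ 2 * A + (-256/9) * κ ^ 2 * A ^ 2 + (512/27) * κ ^ 2 * A ^ 3
  + (-304/27) * κ ^ 3 * A + 48 * κ ^ 3 * A ^ 2 + (-512/9) * κ ^ 3 * A ^ 3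
  + (320/27) * κ ^ 3 * A ^ 4 + (-196/9) * κ ^ 4 * A ^ 2 + (176/3) * κ ^ 4 * A ^ 3
  + (-244/9) * κ ^ 4 * A ^ 4 + (-56/9) * κ ^ 4 * A ^ 5 + (-593/27) * κ ^ 5 * A ^ 3
  + (271/9) * κ ^ 5 * A ^ 4 + (23/9) * κ ^ 5 * A ^ 5 + (23/27) * κ ^ 5 * A ^ 6
  + (-332/27) * κ ^ 6 * A ^ 4 + 5 * κ ^ 6 * A ^ 5 + (10/9) * κ ^ 6 * A ^ 6
  + (-1/27) * κ ^ 6 * A ^ 7 + (-34/9) * κ ^ 7 * A ^ 5 + (-1/3) * κ ^ 7 * A ^ 6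
  + (-1/9) * κ ^ 7 * A ^ 7 + (-16/27) * κ ^ 8 * A ^ 6 + (-1/9) * κ ^ 8 * A ^ 7
  + (-1/27) * κ ^ 9 * A ^ 7

noncomputable def rpol (κ A y : ℝ) : ℝ := 16 * A - 8 + κ * (Sc0 κ A + Sc1 κ A * y + Sc2 κ A * y ^ 2
  + Sc3 κ A * y ^ 3 + Sc4 κ A * y ^ 4 + Sc5 κ A * y ^ 5 + Sc6 κ A * y ^ 6 + Sc7 κ A * y ^ 7)

theorem rpol_id (κ A y : ℝ) : cA κ A * UP κ A y * VP κ A y * (1 - κ * vP κ A y) - vP' κ A y ^ 2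
    = κ * (y ^ 2 * (1 - y) * rpol κ A y) := by
  unfold rpol Sc0 Sc1 Sc2 Sc3 Sc4 Sc5 Sc6 Sc7 UP VP vP vP' cD cC cB mu2 cA
  ring

end P205T.K
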